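import Mathlib

/-!
# P226: the mean norm of the standard Gaussian vector in three dimensions

`integral_norm_stdGaussian_three`: the expectation of the Euclidean norm of a standard Gaussian
vector in three dimensions is `2 * sqrt (2 / pi)`. The proof identifies the standard Gaussian
measure with the measure of density `(2 pi)^(-3/2) exp (-|x|^2 / 2)` (equality of characteristic
functions) and integrates in polar coordinates.
-/

namespace Vale.Agent.Lib.P226.H16chi

open MeasureTheory ProbabilityTheory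
open scoped RealInnerProductSpace

/-- Euclidean three-space. -/
abbrev E3 : Type := EuclideanSpace ℝ (Fin 3)

/-- The density of the standard Gaussian measure on `E3`. -/
noncomputable def gdens (x : E3) : ℝ :=
  (Real.sqrt (2 * Real.pi))⁻¹ ^ 3 * Real.exp (-(1 / 2) * ‖x‖ ^ 2)

lemma gdens_nonneg (x : E3) : 0 ≤ gdens x := by
  unfold gdens
  positivity

lemma rpow_three_halves (x : ℝ) (hx : 0 ≤ x) : x ^ ((3 : ℝ) / 2) = Real.sqrt x ^ 3 := by
  rw [Real.sqrt_eq_rpow, ← Real.rpow_natCast, ← Real.rpow_mul hx]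
  norm_num

lemma integral_rexp_E3 :
    ∫ v : E3, Real.exp (-(1 / 2) * ‖v‖ ^ 2) = Real.sqrt (2 * Real.pi) ^ 3 := by
  have h := GaussianFourier.integral_rexp_neg_mul_sq_norm (V := E3) (b := 1 / 2) (by norm_num)
  rw [h, finrank_euclideanSpace_fin]
  have h2 : Real.pi / (1 / 2) = 2 * Real.pi := by ring
  rw [h2]
  have h3 : (((3 : ℕ) : ℝ) / 2) = (3 : ℝ) / 2 := by norm_num
  rw [h3]
  exact rpow_three_halves _ (by positivity)

lemma integrable_rexp_E3 : Integrable (fun v : E3 => Real.exp (-(1 / 2) * ‖v‖ ^ 2)) := by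
  refine Integrable.of_integral_ne_zero ?_
  rw [integral_rexp_E3]
  positivity

lemma integrable_gdens : Integrable gdens := by
  unfold gdens
  exact integrable_rexp_E3.const_mul _


lemma measurable_gdens : Measurable gdens := by
  unfold gdens
  fun_prop

/-- The measure on `E3` with the Gaussian density. -/
noncomputable def gmeas : Measure E3 := volume.withDensity (fun x => ENNReal.ofReal (gdens x))

lemma isFiniteMeasure_gmeas : IsFiniteMeasure gmeas :=
  isFiniteMeasure_withDensity_ofReal integrable_gdens.2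

lemma integral_gmeas {G : Type*} [NormedAddCommGroup G] [NormedSpace ℝ G] (g : E3 → G) :
    ∫ x, g x ∂gmeas = ∫ x, gdens x • g x := by
  unfold gmeas
  rw [integral_withDensity_eq_integral_toReal_smul measurable_gdens.ennreal_ofReal
    (Filter.Eventually.of_forall fun x => ENNReal.ofReal_lt_top)]
  refine integral_congr_ae (Filter.Eventually.of_forall fun x => ?_)
  simp only [ENNReal.toReal_ofReal (gdens_nonneg x)]

lemma cpow_const : ((Real.pi : ℂ) / (1 / 2 : ℂ)) ^ ((Module.finrank ℝ E3 : ℂ) / 2)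
    = ((Real.sqrt (2 * Real.pi) ^ 3 : ℝ) : ℂ) := by
  rw [finrank_euclideanSpace_fin]
  have h1 : ((Real.pi : ℂ) / (1 / 2 : ℂ)) = ((2 * Real.pi : ℝ) : ℂ) := by
    push_cast
    ring
  have h2 : (((3 : ℕ) : ℂ) / 2) = (((3 : ℝ) / 2 : ℝ) : ℂ) := by
    push_cast
    ring
  rw [h1, h2, ← Complex.ofReal_cpow (by positivity), rpow_three_halves _ (by positivity)]

lemma charFun_gmeas (t : E3) : charFun gmeas t = Complex.exp (-‖t‖ ^ 2 / 2) := by
  rw [charFun_apply, integral_gmeas]
  have h := GaussianFourier.integral_cexp_neg_mul_sq_norm_add (V := E3) (b := (1 / 2 : ℂ))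
    (by norm_num) Complex.I t
  have hint : ∀ x : E3, gdens x • Complex.exp ((⟪x, t⟫ : ℝ) * Complex.I)
      = (((Real.sqrt (2 * Real.pi))⁻¹ ^ 3 : ℝ) : ℂ)
        * Complex.exp (-(1 / 2 : ℂ) * (‖x‖ : ℂ) ^ 2 + Complex.I * ((⟪t, x⟫ : ℝ) : ℂ)) := by
    intro x
    unfold gdens
    rw [Complex.real_smul, Complex.ofReal_mul, Complex.ofReal_exp, mul_assoc, ← Complex.exp_add,
      real_inner_comm]
    congr 2
    push_cast
    ring
  rw [integral_congr_ae (Filter.Eventually.of_forall hint), integral_const_mul, h, cpow_const,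
    ← mul_assoc, ← Complex.ofReal_mul]
  have hs : (0 : ℝ) < Real.sqrt (2 * Real.pi) := by positivity
  have h1 : (Real.sqrt (2 * Real.pi))⁻¹ ^ 3 * Real.sqrt (2 * Real.pi) ^ 3 = 1 := by
    rw [← mul_pow, inv_mul_cancel₀ hs.ne', one_pow]
  rw [h1, Complex.ofReal_one, one_mul]
  congr 1
  rw [Complex.I_sq]
  ring

lemma stdGaussian_eq_gmeas : stdGaussian E3 = gmeas := by
  have hfin : IsFiniteMeasure gmeas := isFiniteMeasure_gmeas
  refine Measure.ext_of_charFun (funext fun t => ?_)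
  rw [charFun_stdGaussian, charFun_gmeas]


lemma integral_radial :
    ∫ y in Set.Ioi (0 : ℝ), y ^ 3 * Real.exp (-(1 / 2) * y ^ 2) = 2 := by
  have h2 := integral_rpow_mul_exp_neg_mul_rpow (p := 2) (q := 3) (b := 1 / 2) (by norm_num)
    (by norm_num) (by norm_num)
  have h3 : (1 / 2 : ℝ) ^ (-(3 + 1) / 2 : ℝ) * (1 / 2) * Real.Gamma ((3 + 1) / 2) = 2 := by
    have e1 : (-(3 + 1) / 2 : ℝ) = -2 := by norm_num
    have e2 : ((3 + 1) / 2 : ℝ) = 2 := by norm_num
    rw [e1, e2, Real.Gamma_two, Real.rpow_neg (by norm_num), Real.rpow_two]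
    norm_num
  rw [h3] at h2
  refine Eq.trans (setIntegral_congr_fun measurableSet_Ioi fun y _ => ?_) h2
  have e3 : y ^ (3 : ℝ) = y ^ 3 := by
    rw [← Real.rpow_natCast]
    norm_num
  have e4 : y ^ (2 : ℝ) = y ^ 2 := by
    rw [← Real.rpow_natCast]
    norm_num
  show y ^ 3 * Real.exp (-(1 / 2) * y ^ 2) = y ^ (3 : ℝ) * Real.exp (-(1 / 2) * y ^ (2 : ℝ))
  rw [e3, e4]

theorem integral_norm_stdGaussian_three :
    ∫ y, ‖y‖ ∂(stdGaussian (EuclideanSpace ℝ (Fin 3))) = 2 * Real.sqrt (2 / Real.pi) := by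
  rw [show stdGaussian (EuclideanSpace ℝ (Fin 3)) = gmeas from stdGaussian_eq_gmeas,
    integral_gmeas]
  obtain ⟨f, hf⟩ : ∃ f : ℝ → ℝ, ∀ r,
      f r = (Real.sqrt (2 * Real.pi))⁻¹ ^ 3 * Real.exp (-(1 / 2) * r ^ 2) * r :=
    ⟨_, fun _ => rfl⟩
  have h1 : ∀ x : E3, gdens x • ‖x‖ = f ‖x‖ := by
    intro x
    rw [hf, smul_eq_mul]
    rfl
  rw [integral_congr_ae (Filter.Eventually.of_forall h1),
    integral_fun_norm_addHaar volume f, finrank_euclideanSpace_fin]
  have hball : (volume : Measure E3).real (Metric.ball 0 1) = Real.pi * 4 / 3 := by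
    rw [Measure.real, EuclideanSpace.volume_ball_fin_three]
    rw [ENNReal.ofReal_one, one_pow, one_mul, ENNReal.toReal_ofReal (by positivity)]
  have hint : ∫ y in Set.Ioi (0 : ℝ), y ^ (3 - 1) • f y
      = (Real.sqrt (2 * Real.pi))⁻¹ ^ 3 * 2 := by
    have h4 : ∀ y ∈ Set.Ioi (0 : ℝ), y ^ (3 - 1) • f y
        = (Real.sqrt (2 * Real.pi))⁻¹ ^ 3 * (y ^ 3 * Real.exp (-(1 / 2) * y ^ 2)) := by
      intro y _
      rw [hf, smul_eq_mul]
      ring
    rw [setIntegral_congr_fun measurableSet_Ioi h4, integral_const_mul, integral_radial]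
  rw [hball, hint]
  have hs : (0 : ℝ) < Real.sqrt (2 * Real.pi) := by positivity
  have hs2 : Real.sqrt (2 * Real.pi) ^ 2 = 2 * Real.pi := Real.sq_sqrt (by positivity)
  obtain ⟨s, hsdef⟩ : ∃ s, s = Real.sqrt (2 * Real.pi) := ⟨_, rfl⟩
  rw [← hsdef] at hs hs2 ⊢
  have hpi : Real.pi = s ^ 2 / 2 := by linarith
  have hsq : Real.sqrt (2 / Real.pi) = 2 / s := by
    rw [Real.sqrt_eq_iff_mul_self_eq (by positivity) (by positivity), hpi]
    field_simp
  rw [hsq, nsmul_eq_mul, smul_eq_mul, hpi]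
  field_simp
  ring

end Vale.Agent.Lib.P226.H16chi
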