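import Mathlib

/-!
# P226, pool job MEAS: regrouping one cell of a partition

`regroup_meas`: from a partition `A` into `k + 1` cells and three distinct cells `i`, `j`, `l`,
split the cell `A j` into `P = A j ∩ -A i` and `R = A j \ P`, and attach `R` to `A i` and `P` to
`A l`.  The result is a partition into `k` cells; a bound `C` for all `k`-cell partitions
therefore bounds the regrouped sum of squared first moments.
-/

open MeasureTheory ProbabilityTheory Set

namespace Vale.Agent.Lib.P226.H16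

theorem regroup_meas {d k : ℕ} (C : ℝ)
    (hC : ∀ B : Fin k → Set (EuclideanSpace ℝ (Fin d)), (∀ m, MeasurableSet (B m)) →
      (∀ a b, a ≠ b → Disjoint (B a) (B b)) → ⋃ m, B m = Set.univ →
      ∑ m, ‖∫ x in B m, x ∂(stdGaussian (EuclideanSpace ℝ (Fin d)))‖ ^ 2 ≤ C)
    (A : Fin (k + 1) → Set (EuclideanSpace ℝ (Fin d)))
    (hA : ∀ i, MeasurableSet (A i)) (hdisj : ∀ i j, i ≠ j → Disjoint (A i) (A j))
    (hcover : ⋃ i, A i = Set.univ) (i j l : Fin (k + 1)) (hij : i ≠ j) (hli : l ≠ i)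
    (hlj : l ≠ j) :
    (∑ m, ‖∫ x in A m, x ∂(stdGaussian (EuclideanSpace ℝ (Fin d)))‖ ^ 2)
        - ‖∫ x in A i, x ∂(stdGaussian (EuclideanSpace ℝ (Fin d)))‖ ^ 2
        - ‖∫ x in A j, x ∂(stdGaussian (EuclideanSpace ℝ (Fin d)))‖ ^ 2
        - ‖∫ x in A l, x ∂(stdGaussian (EuclideanSpace ℝ (Fin d)))‖ ^ 2
        + ‖(∫ x in A i, x ∂(stdGaussian (EuclideanSpace ℝ (Fin d))))
            + (∫ x in A j, x ∂(stdGaussian (EuclideanSpace ℝ (Fin d))))
            - ∫ x in A j ∩ {x | -x ∈ A i}, x ∂(stdGaussian (EuclideanSpace ℝ (Fin d)))‖ ^ 2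
        + ‖(∫ x in A l, x ∂(stdGaussian (EuclideanSpace ℝ (Fin d))))
            + ∫ x in A j ∩ {x | -x ∈ A i}, x ∂(stdGaussian (EuclideanSpace ℝ (Fin d)))‖ ^ 2
      ≤ C := by
  classical
  have hint : Integrable (fun x : EuclideanSpace ℝ (Fin d) => x)
      (stdGaussian (EuclideanSpace ℝ (Fin d))) := IsGaussian.integrable_id
  obtain ⟨P, hP⟩ : ∃ P : Set (EuclideanSpace ℝ (Fin d)), P = A j ∩ {x | -x ∈ A i} := ⟨_, rfl⟩
  obtain ⟨R, hR⟩ : ∃ R : Set (EuclideanSpace ℝ (Fin d)), R = A j \ P := ⟨_, rfl⟩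
  have hPm : MeasurableSet P := by
    rw [hP]
    exact (hA j).inter (measurable_neg (hA i))
  have hRm : MeasurableSet R := by
    rw [hR]
    exact (hA j).diff hPm
  have hPj : P ⊆ A j := by
    rw [hP]
    exact Set.inter_subset_left
  have hRj : R ⊆ A j := by
    rw [hR]
    exact Set.sdiff_subset
  have hPR : Disjoint P R := by
    rw [hR]
    exact Set.disjoint_sdiff_right
  have hPRu : P ∪ R = A j := by
    rw [hR]
    exact Set.union_sdiff_cancel hPj
  rw [← hP]
  obtain ⟨B', hB'⟩ : ∃ B' : Fin (k + 1) → Set (EuclideanSpace ℝ (Fin d)),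
      B' = fun m => if m = j then ∅ else if m = i then A i ∪ R else
        if m = l then A l ∪ P else A m := ⟨_, rfl⟩
  have hB'j : B' j = ∅ := by
    rw [hB']
    exact if_pos rfl
  have hB'i : B' i = A i ∪ R := by
    rw [hB']
    show (if i = j then ∅ else if i = i then A i ∪ R else if i = l then A l ∪ P else A i) = _
    rw [if_neg hij, if_pos rfl]
  have hB'l : B' l = A l ∪ P := by
    rw [hB']
    show (if l = j then ∅ else if l = i then A i ∪ R else if l = l then A l ∪ P else A l) = _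
    rw [if_neg hlj, if_neg hli, if_pos rfl]
  have hB'o : ∀ a, a ≠ i → a ≠ j → a ≠ l → B' a = A a := by
    intro a h1 h2 h3
    rw [hB']
    show (if a = j then ∅ else if a = i then A i ∪ R else if a = l then A l ∪ P else A a) = _
    rw [if_neg h2, if_neg h1, if_neg h3]
  have hB'mem : ∀ a x, x ∈ B' a →
      a ≠ j ∧ (x ∈ A a ∨ (a = i ∧ x ∈ R) ∨ (a = l ∧ x ∈ P)) := by
    intro a x hx
    by_cases haj : a = j
    · rw [haj, hB'j] at hx
      exact absurd hx (Set.notMem_empty x)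
    refine ⟨haj, ?_⟩
    by_cases hai : a = i
    · rw [hai, hB'i] at hx
      rcases hx with h | h
      · exact Or.inl (hai ▸ h)
      · exact Or.inr (Or.inl ⟨hai, h⟩)
    by_cases hal : a = l
    · rw [hal, hB'l] at hx
      rcases hx with h | h
      · exact Or.inl (hal ▸ h)
      · exact Or.inr (Or.inr ⟨hal, h⟩)
    · rw [hB'o a hai haj hal] at hx
      exact Or.inl hx
  have hB'meas : ∀ a, MeasurableSet (B' a) := by
    intro a
    by_cases haj : a = j
    · rw [haj, hB'j]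
      exact MeasurableSet.empty
    by_cases hai : a = i
    · rw [hai, hB'i]
      exact (hA i).union hRm
    by_cases hal : a = l
    · rw [hal, hB'l]
      exact (hA l).union hPm
    · rw [hB'o a hai haj hal]
      exact hA a
  have hB'disj : ∀ a b, a ≠ b → Disjoint (B' a) (B' b) := by
    intro a b hab
    rw [Set.disjoint_left]
    intro x hxa hxb
    obtain ⟨haj, ha⟩ := hB'mem a x hxa
    obtain ⟨hbj, hb⟩ := hB'mem b x hxb
    have dis : ∀ u v : Fin (k + 1), u ≠ v → x ∈ A u → x ∈ A v → False :=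
      fun u v huv h1 h2 => Set.disjoint_left.1 (hdisj u v huv) h1 h2
    rcases ha with ha | ⟨hai, ha⟩ | ⟨hal, ha⟩ <;> rcases hb with hb | ⟨hbi, hb⟩ | ⟨hbl, hb⟩
    · exact dis a b hab ha hb
    · exact dis a j haj ha (hRj hb)
    · exact dis a j haj ha (hPj hb)
    · exact dis b j hbj hb (hRj ha)
    · exact hab (hai.trans hbi.symm)
    · exact Set.disjoint_left.1 hPR hb ha
    · exact dis b j hbj hb (hPj ha)
    · exact Set.disjoint_left.1 hPR ha hb
    · exact hab (hal.trans hbl.symm)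
  have hBcover : ⋃ m : Fin k, B' (j.succAbove m) = Set.univ := by
    rw [Set.eq_univ_iff_forall]
    intro x
    have hx : x ∈ ⋃ a, A a := by
      rw [hcover]
      exact Set.mem_univ x
    obtain ⟨a, hxa⟩ := Set.mem_iUnion.1 hx
    rw [Set.mem_iUnion]
    by_cases haj : a = j
    · rw [haj] at hxa
      by_cases hxP : x ∈ P
      · obtain ⟨m, hm⟩ := Fin.exists_succAbove_eq hlj
        refine ⟨m, ?_⟩
        rw [hm, hB'l]
        exact Or.inr hxP
      · obtain ⟨m, hm⟩ := Fin.exists_succAbove_eq hij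
        refine ⟨m, ?_⟩
        rw [hm, hB'i, hR]
        exact Or.inr ⟨hxa, hxP⟩
    · obtain ⟨m, hm⟩ := Fin.exists_succAbove_eq haj
      refine ⟨m, ?_⟩
      rw [hm]
      by_cases hai : a = i
      · rw [hai, hB'i]
        rw [hai] at hxa
        exact Or.inl hxa
      by_cases hal : a = l
      · rw [hal, hB'l]
        rw [hal] at hxa
        exact Or.inl hxa
      · rw [hB'o a hai haj hal]
        exact hxa
  have h1 := hC (fun m => B' (j.succAbove m)) (fun m => hB'meas _)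
    (fun a b hab => hB'disj _ _ (fun h => hab (Fin.succAbove_right_injective h))) hBcover
  have h2 : ∑ a, ‖∫ x in B' a, x ∂(stdGaussian (EuclideanSpace ℝ (Fin d)))‖ ^ 2 =
      ∑ m : Fin k, ‖∫ x in B' (j.succAbove m), x ∂(stdGaussian (EuclideanSpace ℝ (Fin d)))‖ ^ 2 := by
    rw [Fin.sum_univ_succAbove _ j, hB'j]
    simp
  -- first moments of the three modified cells
  have hzj : ∫ x in A j, x ∂(stdGaussian (EuclideanSpace ℝ (Fin d))) =
      (∫ x in P, x ∂(stdGaussian (EuclideanSpace ℝ (Fin d)))) +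
        ∫ x in R, x ∂(stdGaussian (EuclideanSpace ℝ (Fin d))) := by
    rw [← hPRu]
    exact setIntegral_union hPR hRm hint.integrableOn hint.integrableOn
  have hfi : ∫ x in B' i, x ∂(stdGaussian (EuclideanSpace ℝ (Fin d))) =
      (∫ x in A i, x ∂(stdGaussian (EuclideanSpace ℝ (Fin d)))) +
        (∫ x in A j, x ∂(stdGaussian (EuclideanSpace ℝ (Fin d)))) -
        ∫ x in P, x ∂(stdGaussian (EuclideanSpace ℝ (Fin d))) := by
    rw [hB'i, setIntegral_union ((hdisj i j hij).mono_right hRj) hRm hint.integrableOn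
      hint.integrableOn, hzj]
    abel
  have hfl : ∫ x in B' l, x ∂(stdGaussian (EuclideanSpace ℝ (Fin d))) =
      (∫ x in A l, x ∂(stdGaussian (EuclideanSpace ℝ (Fin d)))) +
        ∫ x in P, x ∂(stdGaussian (EuclideanSpace ℝ (Fin d))) := by
    rw [hB'l]
    exact setIntegral_union ((hdisj l j hlj).mono_right hPj) hPm hint.integrableOn
      hint.integrableOn
  have hfj : ∫ x in B' j, x ∂(stdGaussian (EuclideanSpace ℝ (Fin d))) = 0 := by
    rw [hB'j]
    simp
  -- the sum of the differences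
  have hzero : ∀ a ∈ (Finset.univ : Finset (Fin (k + 1))), a ∉ ({i, j, l} : Finset (Fin (k + 1))) →
      ‖∫ x in B' a, x ∂(stdGaussian (EuclideanSpace ℝ (Fin d)))‖ ^ 2 -
        ‖∫ x in A a, x ∂(stdGaussian (EuclideanSpace ℝ (Fin d)))‖ ^ 2 = 0 := by
    intro a _ ha
    simp only [Finset.mem_insert, Finset.mem_singleton, not_or] at ha
    rw [hB'o a ha.1 ha.2.1 ha.2.2, sub_self]
  have hD : ∑ a, (‖∫ x in B' a, x ∂(stdGaussian (EuclideanSpace ℝ (Fin d)))‖ ^ 2 -
        ‖∫ x in A a, x ∂(stdGaussian (EuclideanSpace ℝ (Fin d)))‖ ^ 2) =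
      (‖∫ x in B' i, x ∂(stdGaussian (EuclideanSpace ℝ (Fin d)))‖ ^ 2 -
        ‖∫ x in A i, x ∂(stdGaussian (EuclideanSpace ℝ (Fin d)))‖ ^ 2) +
      ((‖∫ x in B' j, x ∂(stdGaussian (EuclideanSpace ℝ (Fin d)))‖ ^ 2 -
        ‖∫ x in A j, x ∂(stdGaussian (EuclideanSpace ℝ (Fin d)))‖ ^ 2) +
      (‖∫ x in B' l, x ∂(stdGaussian (EuclideanSpace ℝ (Fin d)))‖ ^ 2 -
        ‖∫ x in A l, x ∂(stdGaussian (EuclideanSpace ℝ (Fin d)))‖ ^ 2)) := by
    rw [← Finset.sum_subset (Finset.subset_univ ({i, j, l} : Finset (Fin (k + 1)))) hzero,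
      Finset.sum_insert (by simp [hij, hli.symm]), Finset.sum_pair hlj.symm]
  rw [Finset.sum_sub_distrib, hfi, hfl, hfj] at hD
  rw [← h2] at h1
  have h0 : ‖(0 : EuclideanSpace ℝ (Fin d))‖ ^ 2 = 0 := by simp
  rw [h0] at hD
  linarith

end Vale.Agent.Lib.P226.H16
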